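import Vale.Agent.P038.H71.Plan
import Vale.Agent.P038.H391.MF

/-!
# P038 (H16): final assembly of Seymour's second neighbourhood conjecture

`H71.plan_lt` (the strict inequality (G) in the normal form with the fewest arcs) and
`H391.no_strict` (no oriented graph satisfies the strict (G) for all sets).
-/

namespace Vale.Agent.P038.H16

open Finset Vale.Agent.P038.H139 Vale.Agent.P038.H71

universe u

variable {V : Type u} [Fintype V]

/-- closed out-neighbourhood of a vertex -/
noncomputable def Nc [DecidableEq V] (D : OGraph V) (a : V) : Finset V := insert a (N1 D a)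

theorem mem_Nc [DecidableEq V] {D : OGraph V} {a b : V} : b ∈ Nc D a ↔ b = a ∨ D.arc a b := by
  unfold Nc
  rw [Finset.mem_insert, mem_N1]

theorem nb_eq [DecidableEq V] (D : OGraph V) (X : Finset V) : H391.nb (Nc D) X = cl D X := by
  ext z
  rw [H391.mem_nb, mem_cl]
  constructor
  · rintro ⟨x, hx, h⟩
    rcases mem_Nc.1 h with h | h
    · left; rw [h]; exact hx
    · right; exact ⟨x, hx, h⟩
  · rintro (h | ⟨x, hx, h⟩)
    · exact ⟨z, h, mem_Nc.2 (Or.inl rfl)⟩
    · exact ⟨x, hx, mem_Nc.2 (Or.inr h)⟩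

theorem not_NFmin [Nonempty V] (D : OGraph V) (w : V → ℝ) : ¬ NFmin 1 D w := by
  classical
  intro h
  have hpos := h.toNF.pos
  refine H391.no_strict (Nc D) (fun a => mem_Nc.2 (Or.inl rfl)) ?_ w hpos ?_ ?_
  · intro a b h1 h2
    rcases mem_Nc.1 h1 with h1 | h1
    · exact h1.symm
    · rcases mem_Nc.1 h2 with h2 | h2
      · exact h2
      · exact absurd h2 (D.asymm _ _ h1)
  · intro a
    by_contra hcon
    push Not at hcon
    have h1 : N1 D a = ∅ := by
      rw [Finset.eq_empty_iff_forall_notMem]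
      intro b hb
      have hab := mem_N1.1 hb
      have := hcon b (mem_Nc.2 (Or.inr hab))
      rw [this] at hab
      exact D.loopless _ hab
    have h2 := h.toNF.one a
    have h3 : 0 ≤ W w (N2 D a) := Finset.sum_nonneg fun v _ => (hpos v).le
    have h4 : Fw 1 D w a = 1 * W w (N1 D a) - W w (N2 D a) := rfl
    rw [h4, h1] at h2
    have h5 : W w (∅ : Finset V) = 0 := Finset.sum_empty
    rw [h5] at h2
    linarith
  · intro X hX
    rw [nb_eq] at hX ⊢
    have hcX : X ⊆ cl D X := fun x hx => mem_cl.2 (Or.inl hx)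
    have hL : Lx D X = cl D X \ X := by
      ext z
      unfold Lx
      rw [Finset.mem_sdiff, Finset.mem_sdiff, mem_cl, mem_outS]
      constructor
      · rintro ⟨h1, h2⟩
        exact ⟨Or.inr h1, h2⟩
      · rintro ⟨h1 | h1, h2⟩
        · exact absurd h1 h2
        · exact ⟨h1, h2⟩
    have hne : (Lx D X).Nonempty := by
      rw [hL]
      by_contra hcon
      rw [Finset.not_nonempty_iff_eq_empty, Finset.sdiff_eq_empty_iff_subset] at hcon
      exact hX (Finset.Subset.antisymm hcon hcX)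
    have h1 := plan_lt h X ∅ (Finset.empty_ssubset.2 hne)
    unfold dd at h1
    have h0 : W w (∅ : Finset V) = 0 := Finset.sum_empty
    have h00 : cl D (∅ : Finset V) = ∅ := by
      rw [Finset.eq_empty_iff_forall_notMem]
      intro z hz
      rcases mem_cl.1 hz with hz | ⟨x, hx, _⟩
      · simp at hz
      · simp at hx
    rw [h00] at h1
    have h01 : (∅ : Finset V) \ X = ∅ := by simp
    rw [h01, h0] at h1
    have h2 : cl D (cl D X) \ X = cl D (Lx D X) \ X ∪ cl D X \ X := by
      ext z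
      simp only [Finset.mem_sdiff, Finset.mem_union, hL]
      constructor
      · rintro ⟨h3, h4⟩
        rcases mem_cl.1 h3 with h5 | ⟨x, hx, h5⟩
        · exact Or.inr ⟨h5, h4⟩
        · by_cases hxX : x ∈ X
          · exact Or.inr ⟨mem_cl.2 (Or.inr ⟨x, hxX, h5⟩), h4⟩
          · exact Or.inl ⟨mem_cl.2 (Or.inr ⟨x, Finset.mem_sdiff.2 ⟨hx, hxX⟩, h5⟩), h4⟩
      · rintro (⟨h3, h4⟩ | ⟨h3, h4⟩)
        · refine ⟨?_, h4⟩
          rcases mem_cl.1 h3 with h5 | ⟨x, hx, h5⟩
          · exact mem_cl.2 (Or.inl (Finset.mem_sdiff.1 h5).1)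
          · exact mem_cl.2 (Or.inr ⟨x, (Finset.mem_sdiff.1 hx).1, h5⟩)
        · exact ⟨mem_cl.2 (Or.inl h3), h4⟩
    have h3 : cl D X \ X ⊆ cl D (Lx D X) \ X := by
      intro z hz
      rw [hL]
      exact Finset.mem_sdiff.2 ⟨mem_cl.2 (Or.inl hz), (Finset.mem_sdiff.1 hz).2⟩
    rw [Finset.union_eq_left.2 h3] at h2
    have hXc : X ⊆ cl D (cl D X) := fun x hx => mem_cl.2 (Or.inl (hcX hx))
    have e1 : W w (cl D (cl D X) \ X) = W w (cl D (cl D X)) - W w X := W_sdiff hXc
    have e2 : W w (cl D X \ X) = W w (cl D X) - W w X := W_sdiff hcX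
    have hg : ∀ S, H391.W w S = W w S := fun S => rfl
    simp only [H391.hh, nb_eq, hg]
    rw [← h2, e1, hL, e2] at h1
    linarith

theorem not_NF [Nonempty V] (D : OGraph V) (w : V → ℝ) : ¬ NF 1 D w := by
  intro h
  obtain ⟨D', w', h'⟩ := exists_nfmin h
  exact not_NFmin D' w' h'

/-- Seymour's second neighbourhood conjecture with weights. -/
theorem seymour_weighted [Nonempty V] (D : OGraph V) (w : V → ℝ) (hw : ∀ v, 0 ≤ w v) :
    ∃ v, ∑ u ∈ N1 D v, w u ≤ ∑ u ∈ N2 D v, w u := by
  obtain ⟨v, hv⟩ := snc_of_noNF (lam := 1) zero_le_one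
    (fun V' _ _ D' w' => not_NF (V := V') D' w') D w hw
  exact ⟨v, by linarith⟩

/-- Seymour's second neighbourhood conjecture. -/
theorem seymour [Nonempty V] (D : OGraph V) : ∃ v, (N1 D v).card ≤ (N2 D v).card := by
  obtain ⟨v, hv⟩ := seymour_weighted D (fun _ => (1 : ℝ)) (fun _ => zero_le_one)
  refine ⟨v, ?_⟩
  simp only [Finset.sum_const, nsmul_eq_mul, mul_one] at hv
  exact_mod_cast hv

end Vale.Agent.P038.H16
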